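import Vale.Agent.P277Z.Fin.Red
import Vale.Agent.P277Z.Top.All0
import Vale.Agent.P277Z.Cls.Main
import Vale.Agent.P277Z.Cls.Alv
import Vale.Agent.P277Z.Cls.Api1
import Vale.Agent.P277Z.Cls.Api2
import Vale.Agent.P277Z.Cls.Api3
import Vale.Agent.P277Z.Cls.Bd
import Vale.Agent.P277Z.Cls.Big
import Vale.Agent.P277Z.Cls.Carb
import Vale.Agent.P277Z.Cls.Ch
import Vale.Agent.P277Z.Cls.Cl
import Vale.Agent.P277Z.Cls.Cox
import Vale.Agent.P277Z.Cls.Ctr
import Vale.Agent.P277Z.Cls.Down1C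
import Vale.Agent.P277Z.Cls.Down2
import Vale.Agent.P277Z.Cls.Echo
import Vale.Agent.P277Z.Cls.Fac
import Vale.Agent.P277Z.Cls.FgrB
import Vale.Agent.P277Z.Cls.Fre2
import Vale.Agent.P277Z.Cls.Geny
import Vale.Agent.P277Z.Cls.Gpl
import Vale.Agent.P277Z.Cls.Inv
import Vale.Agent.P277Z.Cls.Invm
import Vale.Agent.P277Z.Cls.Loc
import Vale.Agent.P277Z.Cls.Mer
import Vale.Agent.P277Z.Cls.Model7
import Vale.Agent.P277Z.Cls.Mov
import Vale.Agent.P277Z.Cls.Negs
import Vale.Agent.P277Z.Cls.Old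
import Vale.Agent.P277Z.Cls.Ord
import Vale.Agent.P277Z.Cls.Pmd
import Vale.Agent.P277Z.Cls.Posm
import Vale.Agent.P277Z.Cls.Prjl
import Vale.Agent.P277Z.Cls.Rig
import Vale.Agent.P277Z.Cls.Rk2
import Vale.Agent.P277Z.Cls.RzlAll
import Vale.Agent.P277Z.Cls.Six
import Vale.Agent.P277Z.Cls.Sli
import Vale.Agent.P277Z.Cls.Two
import Vale.Agent.P277Z.Cls.Unit
import Vale.Agent.P277Z.Cls.Zc
import Vale.Agent.P277Z.Cls.Zero

/-!
# P277: the class group step, and the theorem on one model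
-/

namespace Vale.Agent.P277Z.Fn

open Cls

theorem cls : Top.StCls :=
  have a1 := stApi1
  have a2 := stApi2 stLoc stMer a1
  have a3 := stApi3 stLoc a1
  have gn := Pj.F.gen C1.fts
  have gpl := stGpl gn
  have cox := stCox stCh (stFgr Ex.fgb4 stZero stLoc) (stBig stZero Brg.ramp Brg.rpoA FI.ggfA)
    stZero stMer
  have mdl := stModel (stMov stLoc stMer) stRzl (stPmd stLoc) stPosm stPrjl
  have ctr := stCtr gn a1 a2 stLoc stMer
  have ngs := stNegs stLoc a1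
  have fre := stFre2 a1 stLoc stMer
  have zc := stZc (stRk2 gpl a1 a2 a3) gpl a1 a3
  stCls_of ⟨stBasis, stFac, gp, six, lbv, cox, mdl, a1, a2, ctr, ngs,
    stInv mdl ctr ngs a1 (stOrd stLoc) stMer cox lbv six gp stLoc, stGeny a1, stCl a1 stMer stLoc,
    stInvm a1, stBd fre zc a1 a2, stTwo stRig a1 a3 stMer stLoc, stThree fre zc a1 a2 a3,
    stAlv (stSli a1 a3 stEcho (stCarb stLoc gpl a1)) fre gpl stRig stLev stEcho (stOld stLoc)
      a1 a2 a3,
    stUnit (stOrd stLoc) a1 a2 stMer stZero stLoc, stDown1c, down2⟩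

theorem glc : St.MOD (· ≤ 1) := mod_of (Top.top_of_cls cls)

end Vale.Agent.P277Z.Fn
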