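import Vale.Agent.P277Z.Glc.All
import Vale.Agent.P277Z.Ex.All
import Vale.Agent.P277Z.Val.All0
import Vale.Agent.P277Z.Val.Neg3
import Vale.Agent.P277Z.GH.KahNef
import Vale.Agent.P277Z.St.Top
import Vale.Agent.P277Z.St.Prime
import Vale.Agent.P277Z.St.Open

/-!
# P277: the theorem from the bound for the relations
-/

namespace Vale.Agent.P277Z.Fn

theorem dom : GH.StDom := GH.dom_of Glc.ghRes0 Glc.ghPrin Glc.ghComp Val.stHom

theorem top {S : ℝ → Prop} (hM : St.MOD S) : St.TOP S :=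
  St.top_of hM
    (St.prime_of Glc.ghRes0 Glc.ghPrin Glc.ghComp GH.fam Pj.rap Pj.prjs (Pj.F.remg C1.fts))
    (St.small_of Glc.ghRes0 dom Pj.rap Pj.prjs (Pj.F.remg C1.fts) Pj.prjc)
    (St.open_of Glc.ghRes0 Val.ampC Val.an Pj.rap (Pj.F.genpt C1.fts))
    (St.first_of Glc.ghRes0 dom Glc.ghPrin Glc.ghComp GH.fam GH.kr GH.kproj GH.kman) GH.nef

theorem mod_of (h : Top.StTop) : St.MOD (· ≤ 1) :=
  Glc.mod_le Ex.exs
    (Val.gklt0 Val.kodAll Hir.stMain Hir.stMainL Ex.extrV h Val.stNeg3)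

end Vale.Agent.P277Z.Fn
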